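import Mathlib

open scoped ContDiff
open Set Metric

namespace Vale.Agent.Lib.P229

/-- The helicoidal map built from a profile `(r, θ, h)` and a pitch constant `c`. -/
noncomputable def helic (c : ℝ) (r θ h : ℝ → ℝ) (q : ℝ × ℝ) : EuclideanSpace ℝ (Fin 3) :=
  !₂[r q.1 * Real.cos (c * q.2 + θ q.1), r q.1 * Real.sin (c * q.2 + θ q.1), h q.1]

lemma helic_contDiffOn (c : ℝ) {r θ h : ℝ → ℝ} {J : Set ℝ}
    (hr : ContDiffOn ℝ ∞ r J) (hθ : ContDiffOn ℝ ∞ θ J) (hh : ContDiffOn ℝ ∞ h J) :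
    ContDiffOn ℝ ∞ (helic c r θ h) (J ×ˢ (univ : Set ℝ)) := by
  have h1 : MapsTo (fun q : ℝ × ℝ => q.1) (J ×ˢ (univ : Set ℝ)) J := fun q hq => hq.1
  have hr' : ContDiffOn ℝ ∞ (fun q : ℝ × ℝ => r q.1) (J ×ˢ (univ : Set ℝ)) :=
    hr.comp contDiff_fst.contDiffOn h1
  have hθ' : ContDiffOn ℝ ∞ (fun q : ℝ × ℝ => θ q.1) (J ×ˢ (univ : Set ℝ)) :=
    hθ.comp contDiff_fst.contDiffOn h1
  have hh' : ContDiffOn ℝ ∞ (fun q : ℝ × ℝ => h q.1) (J ×ˢ (univ : Set ℝ)) :=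
    hh.comp contDiff_fst.contDiffOn h1
  have harg : ContDiffOn ℝ ∞ (fun q : ℝ × ℝ => c * q.2 + θ q.1) (J ×ˢ (univ : Set ℝ)) :=
    (contDiffOn_const.mul contDiff_snd.contDiffOn).add hθ'
  rw [contDiffOn_euclidean]
  intro i
  fin_cases i
  · simpa [helic] using hr'.mul harg.cos
  · simpa [helic] using hr'.mul harg.sin
  · simpa [helic] using hh'

lemma fderiv_comp_apply {Φ : ℝ × ℝ → EuclideanSpace ℝ (Fin 3)} {q : ℝ × ℝ}
    (hΦ : DifferentiableAt ℝ Φ q) (v : ℝ × ℝ) (i : Fin 3) {γ : ℝ → ℝ × ℝ} {t : ℝ} {d : ℝ}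
    (hγ : HasDerivAt γ v t) (hq : γ t = q)
    (hd : HasDerivAt (fun s => Φ (γ s) i) d t) :
    (fderiv ℝ Φ q v) i = d := by
  subst hq
  have h1 : HasDerivAt (fun s => Φ (γ s)) (fderiv ℝ Φ (γ t) v) t :=
    hΦ.hasFDerivAt.comp_hasDerivAt t hγ
  have h2 : HasDerivAt (fun s => Φ (γ s) i) ((fderiv ℝ Φ (γ t) v) i) t :=
    (EuclideanSpace.proj (𝕜 := ℝ) i).hasFDerivAt.comp_hasDerivAt t h1
  exact h2.unique hd

lemma helic_differentiableAt (c : ℝ) {r θ h : ℝ → ℝ} {J : Set ℝ} (hJ : IsOpen J)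
    (hr : ContDiffOn ℝ ∞ r J) (hθ : ContDiffOn ℝ ∞ θ J) (hh : ContDiffOn ℝ ∞ h J)
    {q : ℝ × ℝ} (hq : q.1 ∈ J) : DifferentiableAt ℝ (helic c r θ h) q := by
  have hopen : IsOpen (J ×ˢ (univ : Set ℝ)) := hJ.prod isOpen_univ
  have hmem : q ∈ J ×ˢ (univ : Set ℝ) := ⟨hq, mem_univ _⟩
  exact ((helic_contDiffOn c hr hθ hh).contDiffAt (hopen.mem_nhds hmem)).differentiableAt
    (by simp)

lemma helic_fderiv_x (c : ℝ) {r θ h : ℝ → ℝ} {J : Set ℝ} (hJ : IsOpen J)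
    (hr : ContDiffOn ℝ ∞ r J) (hθ : ContDiffOn ℝ ∞ θ J) (hh : ContDiffOn ℝ ∞ h J)
    {q : ℝ × ℝ} (hq : q.1 ∈ J) :
    fderiv ℝ (helic c r θ h) q (1, 0) =
      !₂[deriv r q.1 * Real.cos (c * q.2 + θ q.1)
          - r q.1 * (Real.sin (c * q.2 + θ q.1) * deriv θ q.1),
        deriv r q.1 * Real.sin (c * q.2 + θ q.1)
          + r q.1 * (Real.cos (c * q.2 + θ q.1) * deriv θ q.1),
        deriv h q.1] := by
  have hΦ := helic_differentiableAt c hJ hr hθ hh hq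
  have hγ : HasDerivAt (fun s : ℝ => (s, q.2)) ((1 : ℝ), (0 : ℝ)) q.1 :=
    (hasDerivAt_id q.1).prodMk (hasDerivAt_const q.1 q.2)
  have hJn : J ∈ nhds q.1 := hJ.mem_nhds hq
  have dr : HasDerivAt r (deriv r q.1) q.1 :=
    ((hr.contDiffAt hJn).differentiableAt (by simp)).hasDerivAt
  have dθ : HasDerivAt θ (deriv θ q.1) q.1 :=
    ((hθ.contDiffAt hJn).differentiableAt (by simp)).hasDerivAt
  have dh : HasDerivAt h (deriv h q.1) q.1 :=
    ((hh.contDiffAt hJn).differentiableAt (by simp)).hasDerivAt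
  have darg : HasDerivAt (fun s => c * q.2 + θ s) (deriv θ q.1) q.1 := by
    simpa using dθ.const_add (c * q.2)
  have e0 : (fderiv ℝ (helic c r θ h) q (1, 0)) 0 =
      deriv r q.1 * Real.cos (c * q.2 + θ q.1)
          - r q.1 * (Real.sin (c * q.2 + θ q.1) * deriv θ q.1) := by
    refine fderiv_comp_apply hΦ _ _ hγ rfl ?_
    have : HasDerivAt (fun s => r s * Real.cos (c * q.2 + θ s)) _ q.1 := dr.mul darg.cos
    simpa [helic, sub_eq_add_neg] using this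
  have e1 : (fderiv ℝ (helic c r θ h) q (1, 0)) 1 =
      deriv r q.1 * Real.sin (c * q.2 + θ q.1)
          + r q.1 * (Real.cos (c * q.2 + θ q.1) * deriv θ q.1) := by
    refine fderiv_comp_apply hΦ _ _ hγ rfl ?_
    have : HasDerivAt (fun s => r s * Real.sin (c * q.2 + θ s)) _ q.1 := dr.mul darg.sin
    simpa [helic] using this
  have e2 : (fderiv ℝ (helic c r θ h) q (1, 0)) 2 = deriv h q.1 := by
    refine fderiv_comp_apply hΦ _ _ hγ rfl ?_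
    simpa [helic] using dh
  ext i
  fin_cases i
  · simpa using e0
  · simpa using e1
  · simpa using e2

lemma helic_fderiv_y (c : ℝ) {r θ h : ℝ → ℝ} {J : Set ℝ} (hJ : IsOpen J)
    (hr : ContDiffOn ℝ ∞ r J) (hθ : ContDiffOn ℝ ∞ θ J) (hh : ContDiffOn ℝ ∞ h J)
    {q : ℝ × ℝ} (hq : q.1 ∈ J) :
    fderiv ℝ (helic c r θ h) q (0, 1) =
      !₂[- (r q.1 * (Real.sin (c * q.2 + θ q.1) * c)),
        r q.1 * (Real.cos (c * q.2 + θ q.1) * c),
        0] := by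
  have hΦ := helic_differentiableAt c hJ hr hθ hh hq
  have hγ : HasDerivAt (fun s : ℝ => (q.1, s)) ((0 : ℝ), (1 : ℝ)) q.2 :=
    (hasDerivAt_const q.2 q.1).prodMk (hasDerivAt_id q.2)
  have darg : HasDerivAt (fun s => c * s + θ q.1) c q.2 := by
    simpa using ((hasDerivAt_id q.2).const_mul c).add_const (θ q.1)
  have e0 : (fderiv ℝ (helic c r θ h) q (0, 1)) 0 =
      - (r q.1 * (Real.sin (c * q.2 + θ q.1) * c)) := by
    refine fderiv_comp_apply hΦ _ _ hγ rfl ?_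
    have := darg.cos.const_mul (r q.1)
    simpa [helic] using this
  have e1 : (fderiv ℝ (helic c r θ h) q (0, 1)) 1 =
      r q.1 * (Real.cos (c * q.2 + θ q.1) * c) := by
    refine fderiv_comp_apply hΦ _ _ hγ rfl ?_
    have := darg.sin.const_mul (r q.1)
    simpa [helic] using this
  have e2 : (fderiv ℝ (helic c r θ h) q (0, 1)) 2 = 0 := by
    refine fderiv_comp_apply hΦ _ _ hγ rfl ?_
    simpa [helic] using hasDerivAt_const q.2 (h q.1)
  ext i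
  fin_cases i
  · simpa using e0
  · simpa using e1
  · simpa using e2

lemma helic_metric (c : ℝ) {r θ h : ℝ → ℝ} {J : Set ℝ} (hJ : IsOpen J)
    (hr : ContDiffOn ℝ ∞ r J) (hθ : ContDiffOn ℝ ∞ θ J) (hh : ContDiffOn ℝ ∞ h J)
    {q : ℝ × ℝ} (hq : q.1 ∈ J) :
    inner ℝ (fderiv ℝ (helic c r θ h) q (1, 0)) (fderiv ℝ (helic c r θ h) q (1, 0))
        = deriv r q.1 ^ 2 + r q.1 ^ 2 * deriv θ q.1 ^ 2 + deriv h q.1 ^ 2 ∧
    inner ℝ (fderiv ℝ (helic c r θ h) q (1, 0)) (fderiv ℝ (helic c r θ h) q (0, 1))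
        = c * r q.1 ^ 2 * deriv θ q.1 ∧
    inner ℝ (fderiv ℝ (helic c r θ h) q (0, 1)) (fderiv ℝ (helic c r θ h) q (0, 1))
        = c ^ 2 * r q.1 ^ 2 := by
  rw [helic_fderiv_x c hJ hr hθ hh hq, helic_fderiv_y c hJ hr hθ hh hq]
  have hsc := Real.sin_sq_add_cos_sq (c * q.2 + θ q.1)
  refine ⟨?_, ?_, ?_⟩
  · simp only [PiLp.inner_apply, Fin.sum_univ_three, RCLike.inner_apply, conj_trivial]
    simp
    linear_combination (deriv r q.1 ^ 2 + r q.1 ^ 2 * deriv θ q.1 ^ 2) * hsc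
  · simp only [PiLp.inner_apply, Fin.sum_univ_three, RCLike.inner_apply, conj_trivial]
    simp
    linear_combination (c * r q.1 ^ 2 * deriv θ q.1) * hsc
  · simp only [PiLp.inner_apply, Fin.sum_univ_three, RCLike.inner_apply, conj_trivial]
    simp
    linear_combination (c ^ 2 * r q.1 ^ 2) * hsc

lemma primitive_hasDerivAt {φ : ℝ → ℝ} {a δ : ℝ} (hφ : ContinuousOn φ (ball a δ)) {x : ℝ}
    (hx : x ∈ ball a δ) (ha : a ∈ ball a δ) :
    HasDerivAt (fun u => ∫ t in a..u, φ t) (φ x) x := by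
  have hsub : uIcc a x ⊆ ball a δ := by
    rw [Real.ball_eq_Ioo] at hx ha ⊢
    exact ordConnected_Ioo.uIcc_subset ha hx
  have hint : IntervalIntegrable φ MeasureTheory.volume a x :=
    (hφ.mono hsub).intervalIntegrable
  exact intervalIntegral.integral_hasDerivAt_right hint
    (hφ.stronglyMeasurableAtFilter isOpen_ball x hx)
    (hφ.continuousAt (isOpen_ball.mem_nhds hx))

lemma primitive_contDiffOn {φ : ℝ → ℝ} {a δ : ℝ} (hφ : ContDiffOn ℝ ∞ φ (ball a δ))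
    (ha : a ∈ ball a δ) :
    ContDiffOn ℝ ∞ (fun u => ∫ t in a..u, φ t) (ball a δ) := by
  rw [contDiffOn_infty_iff_deriv_of_isOpen isOpen_ball]
  refine ⟨fun x hx =>
    (primitive_hasDerivAt hφ.continuousOn hx ha).differentiableAt.differentiableWithinAt, ?_⟩
  exact hφ.congr (fun x hx => (primitive_hasDerivAt hφ.continuousOn hx ha).deriv)

/-- One-variable core: from smooth data `e f g` on an interval with `D > 0`, the helicoidal
surface realizes the metric `e dx^2 + 2 f dx dy + g dy^2`. -/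
lemma helic_realizes {e f g : ℝ → ℝ} {a δ c : ℝ} (hδ : 0 < δ) (hc : 0 < c)
    (he : ContDiffOn ℝ ∞ e (ball a δ)) (hf : ContDiffOn ℝ ∞ f (ball a δ))
    (hg : ContDiffOn ℝ ∞ g (ball a δ))
    (hgpos : ∀ x ∈ ball a δ, 0 < g x)
    (hD : ∀ x ∈ ball a δ,
      0 < (e x * g x - f x ^ 2) / g x - deriv (fun t => √(g t)) x ^ 2 / c ^ 2) :
    ∃ Φ : ℝ × ℝ → EuclideanSpace ℝ (Fin 3),
      ContDiffOn ℝ ∞ Φ (ball a δ ×ˢ (univ : Set ℝ)) ∧
      ∀ q : ℝ × ℝ, q.1 ∈ ball a δ →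
        inner ℝ (fderiv ℝ Φ q (1, 0)) (fderiv ℝ Φ q (1, 0)) = e q.1 ∧
        inner ℝ (fderiv ℝ Φ q (1, 0)) (fderiv ℝ Φ q (0, 1)) = f q.1 ∧
        inner ℝ (fderiv ℝ Φ q (0, 1)) (fderiv ℝ Φ q (0, 1)) = g q.1 := by
  have ha : a ∈ ball a δ := mem_ball_self hδ
  have hJ : IsOpen (ball a δ) := isOpen_ball
  set ρ : ℝ → ℝ := fun t => √(g t) with hρdef
  have hρ : ContDiffOn ℝ ∞ ρ (ball a δ) := hg.sqrt (fun x hx => (hgpos x hx).ne')
  have hρ' : ContDiffOn ℝ ∞ (deriv ρ) (ball a δ) := hρ.deriv_of_isOpen hJ le_rfl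
  set D : ℝ → ℝ := fun x => (e x * g x - f x ^ 2) / g x - deriv ρ x ^ 2 / c ^ 2 with hDdef
  have hDs : ContDiffOn ℝ ∞ D (ball a δ) := by
    refine ContDiffOn.sub ?_ ?_
    · exact ((he.mul hg).sub (hf.pow 2)).div hg (fun x hx => (hgpos x hx).ne')
    · exact (hρ'.pow 2).div_const _
  have hsD : ContDiffOn ℝ ∞ (fun x => √(D x)) (ball a δ) :=
    hDs.sqrt (fun x hx => (hD x hx).ne')
  have hfg : ContDiffOn ℝ ∞ (fun x => f x / g x) (ball a δ) :=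
    hf.div hg (fun x hx => (hgpos x hx).ne')
  set r : ℝ → ℝ := fun x => ρ x / c with hrdef
  set θ : ℝ → ℝ := fun x => c * ∫ t in a..x, f t / g t with hθdef
  set h : ℝ → ℝ := fun x => ∫ t in a..x, √(D t) with hhdef
  have hr : ContDiffOn ℝ ∞ r (ball a δ) := hρ.div_const c
  have hθ : ContDiffOn ℝ ∞ θ (ball a δ) := contDiffOn_const.mul (primitive_contDiffOn hfg ha)
  have hh : ContDiffOn ℝ ∞ h (ball a δ) := primitive_contDiffOn hsD ha
  refine ⟨helic c r θ h, helic_contDiffOn c hr hθ hh, ?_⟩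
  intro q hq
  obtain ⟨m1, m2, m3⟩ := helic_metric c hJ hr hθ hh hq
  have hJn : ball a δ ∈ nhds q.1 := hJ.mem_nhds hq
  have dρ : HasDerivAt ρ (deriv ρ q.1) q.1 :=
    ((hρ.contDiffAt hJn).differentiableAt (by simp)).hasDerivAt
  have dr : deriv r q.1 = deriv ρ q.1 / c := (dρ.div_const c).deriv
  have dθ : deriv θ q.1 = c * (f q.1 / g q.1) :=
    ((primitive_hasDerivAt hfg.continuousOn hq ha).const_mul c).deriv
  have dh : deriv h q.1 = √(D q.1) := (primitive_hasDerivAt hsD.continuousOn hq ha).deriv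
  have hg0 := hgpos q.1 hq
  have hD0 : 0 < D q.1 := hD q.1 hq
  have hρsq : ρ q.1 ^ 2 = g q.1 := Real.sq_sqrt hg0.le
  have hsq : √(D q.1) ^ 2 = D q.1 := Real.sq_sqrt hD0.le
  have hr2 : r q.1 ^ 2 = g q.1 / c ^ 2 := by
    simp only [hrdef]
    rw [div_pow, hρsq]
  rw [m1, m2, m3, dr, dθ, dh, hr2, hsq]
  have hc0 : c ≠ 0 := hc.ne'
  have hg0' : g q.1 ≠ 0 := hg0.ne'
  refine ⟨?_, ?_, ?_⟩
  · simp only [hDdef]
    field_simp
    ring
  · field_simp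
  · field_simp

/-- A function on a box with vanishing `y`-derivative depends only on `x`. -/
lemma eq_of_fderiv_snd_eq_zero {E : ℝ × ℝ → ℝ} {p : ℝ × ℝ} {ε : ℝ}
    (hE : DifferentiableOn ℝ E (ball p ε))
    (hEy : ∀ q ∈ ball p ε, fderiv ℝ E q (0, 1) = 0) {q : ℝ × ℝ} (hq : q ∈ ball p ε) :
    E q = E (q.1, p.2) := by
  have hq1 : dist q.1 p.1 < ε := by
    have := mem_ball.1 hq
    rw [Prod.dist_eq] at this
    exact lt_of_le_of_lt (le_max_left _ _) this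
  have hq2 : dist q.2 p.2 < ε := by
    have := mem_ball.1 hq
    rw [Prod.dist_eq] at this
    exact lt_of_le_of_lt (le_max_right _ _) this
  have hε : 0 < ε := lt_of_le_of_lt dist_nonneg hq1
  have hmem : ∀ t ∈ ball p.2 ε, (q.1, t) ∈ ball p ε := by
    intro t ht
    rw [mem_ball, Prod.dist_eq]
    exact max_lt hq1 (mem_ball.1 ht)
  have hderiv : ∀ t ∈ ball p.2 ε, HasDerivAt (fun t => E (q.1, t)) 0 t := by
    intro t ht
    have h1 : HasFDerivAt E (fderiv ℝ E (q.1, t)) (q.1, t) :=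
      ((hE _ (hmem t ht)).differentiableAt (isOpen_ball.mem_nhds (hmem t ht))).hasFDerivAt
    have h2 : HasDerivAt (fun s : ℝ => (q.1, s)) ((0 : ℝ), (1 : ℝ)) t :=
      (hasDerivAt_const t q.1).prodMk (hasDerivAt_id t)
    have h3 := h1.comp_hasDerivAt t h2
    rw [hEy _ (hmem t ht)] at h3
    exact h3
  have hconst := IsOpen.is_const_of_deriv_eq_zero (f := fun t => E (q.1, t))
    (isOpen_ball (x := p.2) (ε := ε)) (convex_ball p.2 ε).isPreconnected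
    (fun t ht => (hderiv t ht).differentiableAt.differentiableWithinAt)
    (fun t ht => (hderiv t ht).deriv) (mem_ball.2 hq2) (mem_ball_self hε)
  simpa using hconst

theorem translation_invariant_realizable
    (Ω : Set (ℝ × ℝ)) (hΩ : IsOpen Ω) (E F G : ℝ × ℝ → ℝ)
    (hE : ContDiffOn ℝ ∞ E Ω) (hF : ContDiffOn ℝ ∞ F Ω) (hG : ContDiffOn ℝ ∞ G Ω)
    (hpos : ∀ q ∈ Ω, 0 < E q ∧ 0 < E q * G q - F q ^ 2)
    (hEy : ∀ q ∈ Ω, fderiv ℝ E q (0, 1) = 0)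
    (hFy : ∀ q ∈ Ω, fderiv ℝ F q (0, 1) = 0)
    (hGy : ∀ q ∈ Ω, fderiv ℝ G q (0, 1) = 0)
    (p : ℝ × ℝ) (hp : p ∈ Ω) :
    ∃ U : Set (ℝ × ℝ), IsOpen U ∧ p ∈ U ∧ U ⊆ Ω ∧
      ∃ Φ : ℝ × ℝ → EuclideanSpace ℝ (Fin 3), ContDiffOn ℝ ∞ Φ U ∧ ∀ q ∈ U,
        inner ℝ (fderiv ℝ Φ q (1, 0)) (fderiv ℝ Φ q (1, 0)) = E q ∧
        inner ℝ (fderiv ℝ Φ q (1, 0)) (fderiv ℝ Φ q (0, 1)) = F q ∧
        inner ℝ (fderiv ℝ Φ q (0, 1)) (fderiv ℝ Φ q (0, 1)) = G q := by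
  obtain ⟨ε, hε, hball⟩ := Metric.isOpen_iff.1 hΩ p hp
  set e : ℝ → ℝ := fun x => E (x, p.2) with hedef
  set f : ℝ → ℝ := fun x => F (x, p.2) with hfdef
  set g : ℝ → ℝ := fun x => G (x, p.2) with hgdef
  have hmaps : MapsTo (fun x : ℝ => (x, p.2)) (ball p.1 ε) (ball p ε) := by
    intro x hx
    rw [mem_ball, Prod.dist_eq]
    simpa using mem_ball.1 hx
  have hsm : ContDiffOn ℝ ∞ (fun x : ℝ => (x, p.2)) (ball p.1 ε) :=
    (contDiff_id.prodMk contDiff_const).contDiffOn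
  have he : ContDiffOn ℝ ∞ e (ball p.1 ε) := (hE.mono hball).comp hsm hmaps
  have hf : ContDiffOn ℝ ∞ f (ball p.1 ε) := (hF.mono hball).comp hsm hmaps
  have hg : ContDiffOn ℝ ∞ g (ball p.1 ε) := (hG.mono hball).comp hsm hmaps
  have hpos' : ∀ x ∈ ball p.1 ε, 0 < e x ∧ 0 < e x * g x - f x ^ 2 :=
    fun x hx => hpos _ (hball (hmaps hx))
  have hgpos : ∀ x ∈ ball p.1 ε, 0 < g x := by
    intro x hx
    obtain ⟨h1, h2⟩ := hpos' x hx
    have h3 : 0 < e x * g x := by nlinarith [sq_nonneg (f x)]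
    exact (pos_iff_pos_of_mul_pos h3).1 h1
  have hp1 : p.1 ∈ ball p.1 ε := mem_ball_self hε
  -- choice of the pitch constant
  set ρ : ℝ → ℝ := fun t => √(g t) with hρdef
  set A : ℝ := (e p.1 * g p.1 - f p.1 ^ 2) / g p.1 with hAdef
  set B : ℝ := deriv ρ p.1 ^ 2 with hBdef
  have hA : 0 < A := div_pos (hpos' p.1 hp1).2 (hgpos p.1 hp1)
  have hB : 0 ≤ B := sq_nonneg _
  set c : ℝ := √(B / A + 1) with hcdef
  have hBA : 0 < B / A + 1 := by positivity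
  have hc : 0 < c := Real.sqrt_pos.2 hBA
  have hc2 : c ^ 2 = B / A + 1 := Real.sq_sqrt hBA.le
  set D : ℝ → ℝ := fun x => (e x * g x - f x ^ 2) / g x - deriv ρ x ^ 2 / c ^ 2 with hDdef
  have hD0 : 0 < D p.1 := by
    have : B / c ^ 2 < A := by
      rw [div_lt_iff₀ (by positivity), hc2]
      have : A * (B / A + 1) = B + A := by field_simp
      rw [this]
      linarith
    simp only [hDdef]
    linarith
  have hρ : ContDiffOn ℝ ∞ ρ (ball p.1 ε) := hg.sqrt (fun x hx => (hgpos x hx).ne')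
  have hρ' : ContDiffOn ℝ ∞ (deriv ρ) (ball p.1 ε) := hρ.deriv_of_isOpen isOpen_ball le_rfl
  have hDs : ContDiffOn ℝ ∞ D (ball p.1 ε) := by
    refine ContDiffOn.sub ?_ ?_
    · exact ((he.mul hg).sub (hf.pow 2)).div hg (fun x hx => (hgpos x hx).ne')
    · exact (hρ'.pow 2).div_const _
  have hDc : ContinuousAt D p.1 := hDs.continuousOn.continuousAt (isOpen_ball.mem_nhds hp1)
  have hev : ∀ᶠ x in nhds p.1, 0 < D x := hDc.eventually (lt_mem_nhds hD0)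
  obtain ⟨δ₀, hδ₀, hδ₀D⟩ := Metric.eventually_nhds_iff_ball.1 hev
  set δ : ℝ := min δ₀ ε with hδdef
  have hδ : 0 < δ := lt_min hδ₀ hε
  have hδε : δ ≤ ε := min_le_right _ _
  have hsub : ball p.1 δ ⊆ ball p.1 ε := ball_subset_ball hδε
  obtain ⟨Φ, hΦ, hmet⟩ := helic_realizes (e := e) (f := f) (g := g) (a := p.1) hδ hc
    (he.mono hsub) (hf.mono hsub) (hg.mono hsub) (fun x hx => hgpos x (hsub hx))
    (fun x hx => hδ₀D x (ball_subset_ball (min_le_left _ _) hx))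
  have hUsub : ball p δ ⊆ ball p ε := ball_subset_ball hδε
  have hfst : ∀ q ∈ ball p δ, q.1 ∈ ball p.1 δ := by
    intro q hq
    have := mem_ball.1 hq
    rw [Prod.dist_eq] at this
    exact mem_ball.2 (lt_of_le_of_lt (le_max_left _ _) this)
  refine ⟨ball p δ, isOpen_ball, mem_ball_self hδ, hUsub.trans hball, Φ,
    hΦ.mono (fun q hq => ⟨hfst q hq, mem_univ _⟩), ?_⟩
  intro q hq
  have hqε : q ∈ ball p ε := hUsub hq
  have dOn : ∀ {H : ℝ × ℝ → ℝ}, ContDiffOn ℝ ∞ H Ω → DifferentiableOn ℝ H (ball p ε) :=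
    fun hH => (hH.mono hball).differentiableOn (by simp)
  rw [eq_of_fderiv_snd_eq_zero (dOn hE) (fun q hq => hEy q (hball hq)) hqε,
    eq_of_fderiv_snd_eq_zero (dOn hF) (fun q hq => hFy q (hball hq)) hqε,
    eq_of_fderiv_snd_eq_zero (dOn hG) (fun q hq => hGy q (hball hq)) hqε]
  exact hmet q (hfst q hq)

end Vale.Agent.Lib.P229
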